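import Vale.Agent.P194.Main

universe u

theorem Vale.Agent.Results.P194.A_full.result :
    (¬ ∀ (K : Type) [Field K] (G : Type) [Group G] (a b : MonoidAlgebra K G),
        a * b = 1 → b * a = 1) ∧
    ∀ p : ℕ, p.Prime → ∃ (G : Type) (_ : Group G), Group.IsFinitelyPresented G ∧
      ∀ (K : Type u) [Field K] [CharP K p],
        ∃ a b : MonoidAlgebra K G, a * b = 1 ∧ b * a ≠ 1 :=
  ⟨Vale.Agent.P194.not_all, Vale.Agent.P194.main⟩
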